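import Vale.Agent.P338.R2.H784.Bp.Goals
import Vale.Agent.P338.R2.H501.Bp.MacB
import Vale.Agent.P338.R2.H293.Bp.Len
import Vale.Agent.P338.R2.H101.Bp.RoundL

/-!
P338, stage 3: the batch multiplication of long files, from that of pieces.
-/

namespace Vale.Agent.P338.R2.H525.Bp

open Vale.Agent.P338.R2.H898 hiding val bin
open Vale.Agent.P338.R2.H968 (zipAt zipAt_zero zipAt_length upd_self)
open Vale.Agent.P338.R2.H784
open Vale.Agent.P338.R2.H784.Fp
open Vale.Agent.P338.R2.H784.Bp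
open Vale.Agent.P338.R2.H968.CallEnv (mem0)
open Vale.Agent.P338.R2.H525 (slotAt zeros)
open Vale.Agent.P338.R2.H525.Fp (mmN)
open Vale.Agent.P338.R2.H778 (bits val slots)
open Vale.Agent.P338.R2.H501.Bp (cutP cutQ appendP run_cutB run_cutB' run_appendB run_longB rl)
open Function (update)

/-! Lists. -/

theorem cutB_eq_padW {pad W i N T : ℕ} {x : List Bool} (hx : x.length = T * W) (hi : i + N ≤ T) :
    cutB pad W i N x = padW pad W N fun j => val (slotAt W x (i + j)) := by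
  unfold cutB padW
  apply List.flatMap_congr
  intro j hj
  rw [List.mem_range] at hj
  have h1 := H293.Bp.length_slotAt hx (t := i + j) (by omega)
  have h2 := H778.bits_val (slotAt W x (i + j))
  rw [h1] at h2
  rw [h2]

theorem val_slotAt_lt (W t : ℕ) (x : List Bool) : val (slotAt W x t) < 2 ^ W := by
  have h1 := H778.val_lt (slotAt W x t)
  refine h1.trans_le (Nat.pow_le_pow_right (by norm_num) ?_)
  unfold slotAt
  rw [List.length_take]
  exact min_le_left _ _

theorem padB_le_W {W : ℕ} (hW : 1024 ≤ W) : padB W ≤ W := by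
  have h1 := H282.Bp.padB_le W
  have h2 := Nat.log_lt_self 2 (x := W) (by omega)
  unfold gB at h1
  omega

theorem update_rV (W n q N N' : ℕ) : update (rV W n q N) .N N' = rV W n q N' := by
  funext k
  cases k <;> rfl

variable {A A₀ : MTM} {Y : Type}

section

variable [DecidableEq (LG A.Tape A₀.Tape Y)]

/-- One piece of a long file. -/
def bodyL (pc : PG A A₀ Y) : PG A A₀ Y :=
  .seq (cutP (bt false) .u (ng .z) (ng .x) (ng (.r .N)) (ng (.r .J)) (ng (.r .pd)) (og (.r .wd)))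
    (.seq (cutQ (bt false) (ng .c) (ng .y) (ng (.r .J)) (ng (.r .pd)) (og (.r .wd)))
      (.seq pc (.seq (clr (ng (.r .N))) (appendP (bt false) (ng .x) (ng .o)))))

/-- The batch multiplication of long files. -/
def longP (pc : PG A A₀ Y) : PG A A₀ Y :=
  .seq (.loop (fun _ r => (r (ng .z)).isSome) (bodyL pc))
    (.seq (clr (ng .z)) (.seq (clr (ng .c)) (op (ng .o) .rew)))

/-- The store when the words before `i` are done; the output is `o`. -/
def StL (A A₀ : MTM) (Y : Type) (S : ZS (Al A A₀)) (W n q om nu iv : ℕ) (x y : List Bool) (i : ℕ)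
    (o : List Bool) : Store (Mem A A₀) (LG A.Tape A₀.Tape Y) (Al A A₀) :=
  st2 Y S (bZ A A₀ W n q om nu iv (zipAt (x.map bt) (i * W)) (zipAt (y.map bt) (i * W))
    ⟨(o.map bt).reverse, []⟩ ⟨[], []⟩)

theorem run_bodyL {pc : PG A A₀ Y} {c : ℕ} {τ : ℕ → ℕ} (hpc : PieceOK pc c τ)
    {W n q om nu iv T p μ : ℕ} {S : ZS (Al A A₀)} {x y : List Bool}
    (hP : Prm W q om nu iv) (hn : S.n = n) (hwd : S.r .wd = W) (h800 : 800 * W ≤ n)
    (hR : Rest A A₀ S) (hp : p < 2 ^ W) (hμ : μ < 2 ^ W)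
    (hSp : S.w .p = bw A A₀ (bits W p)) (hSμ : S.w .mu = bw A A₀ (bits W μ))
    (hx : x.length = T * W) (hy : y.length = T * W) {i : ℕ} (hi : i < T) (o : List Bool) :
    Prog.Run (dd A A₀) (bodyL pc) (StL A A₀ Y S W n q om nu iv x y i o)
      ((c + 10) * (mulTime A n + n + T * W * τ W))
      (StL A A₀ Y S W n q om nu iv x y (i + min (jB W n) (T - i))
        (o ++ batchB W q om nu iv n (min (jB W n) (T - i)) p μ
          (cutB (padB W) W i (min (jB W n) (T - i)) x)
          (cutB (padB W) W i (min (jB W n) (T - i)) y))) := by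
  have hW := hP.hW
  obtain ⟨hJ1, hJ2, -⟩ := H101.Bp.jB_facts (W := W) (n := n) (by omega) (by omega)
  have hN1 : 1 ≤ min (jB W n) (T - i) := by omega
  have hNT : i + min (jB W n) (T - i) ≤ T := by omega
  have hNn : 400 * min (jB W n) (T - i) * W ≤ n :=
    (Nat.mul_le_mul_right _ (Nat.mul_le_mul_left _ (min_le_left _ _))).trans hJ2
  set N := min (jB W n) (T - i) with hNdef
  -- the words of the pieces
  have hcx := cutB_eq_padW (pad := padB W) (N := N) hx hNT
  have hcy := cutB_eq_padW (pad := padB W) (N := N) hy hNT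
  have hb := H293.Bp.batchB_eq hP hN1 hNn hp hμ
    (x := fun j => val (slotAt W x (i + j))) (y := fun j => val (slotAt W y (i + j)))
    (fun j _ => val_slotAt_lt _ _ _) (fun j _ => val_slotAt_lt _ _ _)
  rw [← hcx, ← hcy] at hb
  -- cut `z`
  have k1 := run_cutB (d := dd A A₀) (bit := (bt : Bool → Al A A₀)) (u := .u)
    (src := (ng .z : LG A.Tape A₀.Tape Y)) (dst := ng .x) (cnt := ng (.r .N)) (fJ := ng (.r .J))
    (fP := ng (.r .pd)) (fW := og (.r .wd)) (by simp [ng, og, lz])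
    (x := x) (T := T) (W := W) (pad := padB W) (J := jB W n) (i := i)
    (m := (mem0 A, mem0 A₀)) (z := (StL A A₀ Y S W n q om nu iv x y i o).z) hx (by omega) hi.le
    rfl rfl rfl rfl rfl (by
      show ru _ (S.r .wd) = _
      rw [hwd]
      rfl)
  rw [← hNdef] at k1
  have e1 : update (update (update (StL A A₀ Y S W n q om nu iv x y i o).z
      (ng .z) (zipAt (x.map bt) ((i + N) * W))) (ng .x) (bw A A₀ (cutB (padB W) W i N x)))
      (ng (.r .N)) (rl .u N) = z2 .u S ⟨zipAt (x.map bt) ((i + N) * W),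
        zipAt (y.map bt) (i * W), ⟨(o.map bt).reverse, []⟩, bw A A₀ (cutB (padB W) W i N x),
        ⟨[], []⟩, ⟨[], []⟩, rV W n q N, wV A A₀ W q om nu iv⟩ := by
    have e0 := z2_r (T := A.Tape) (T₀ := A₀.Tape) (Y := Y) (u := (.u : Al A A₀)) (S := S)
      (B := ⟨zipAt (x.map bt) ((i + N) * W),
        zipAt (y.map bt) (i * W), ⟨(o.map bt).reverse, []⟩, bw A A₀ (cutB (padB W) W i N x),
        ⟨[], []⟩, ⟨[], []⟩, rV W n q 0, wV A A₀ W q om nu iv⟩) .N N
    rw [update_rV] at e0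
    rw [← e0]
    unfold StL bZ
    simp only [z2_z, z2_x]
    rfl
  rw [e1] at k1
  -- cut `c`
  have k2 := run_cutB' (d := dd A A₀) (bit := (bt : Bool → Al A A₀)) (u := .u)
    (src := (ng .c : LG A.Tape A₀.Tape Y)) (dst := ng .y) (fJ := ng (.r .J))
    (fP := ng (.r .pd)) (fW := og (.r .wd)) (by simp [ng, og, lz])
    (x := y) (T := T) (W := W) (pad := padB W) (J := jB W n) (i := i)
    (m := (mem0 A, mem0 A₀)) (z := z2 .u S ⟨zipAt (x.map bt) ((i + N) * W),
        zipAt (y.map bt) (i * W), ⟨(o.map bt).reverse, []⟩, bw A A₀ (cutB (padB W) W i N x),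
        ⟨[], []⟩, ⟨[], []⟩, rV W n q N, wV A A₀ W q om nu iv⟩) hy (by omega) hi.le
    rfl rfl rfl rfl (by
      show ru _ (S.r .wd) = _
      rw [hwd]
      rfl)
  rw [← hNdef, z2_c, z2_y] at k2
  -- the product
  have k3 := hpc (W := W) (n := n) (q := q) (om := om) (nu := nu) (iv := iv) (N := N) (p := p)
    (μ := μ) (S := S) (B := ⟨zipAt (x.map bt) ((i + N) * W),
        zipAt (y.map bt) ((i + N) * W), ⟨(o.map bt).reverse, []⟩,
        bw A A₀ (cutB (padB W) W i N x), bw A A₀ (cutB (padB W) W i N y), ⟨[], []⟩,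
        rV W n q N, wV A A₀ W q om nu iv⟩)
    (x := fun j => val (slotAt W x (i + j))) (y := fun j => val (slotAt W y (i + j)))
    ⟨hP, hN1, hNn, hn, hwd, rfl, rfl⟩ hR hp hμ hSp hSμ (fun j _ => val_slotAt_lt _ _ _)
    (fun j _ => val_slotAt_lt _ _ _) (by rw [← hcx]) (by rw [← hcy]) rfl
  rw [← hb] at k3
  -- clear the counter
  have k4 := run_clrG (A := A) (A₀ := A₀) (Y := Y) (ng (.r .N)) S
    (⟨zipAt (x.map bt) ((i + N) * W), zipAt (y.map bt) ((i + N) * W),
      ⟨(o.map bt).reverse, []⟩, bw A A₀ (batchB W q om nu iv n N p μ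
        (cutB (padB W) W i N x) (cutB (padB W) W i N y)), ⟨[], []⟩, ⟨[], []⟩,
        rV W n q N, wV A A₀ W q om nu iv⟩)
  have e4 := z2_r (T := A.Tape) (T₀ := A₀.Tape) (Y := Y) (u := (.u : Al A A₀)) (S := S)
    (B := ⟨zipAt (x.map bt) ((i + N) * W), zipAt (y.map bt) ((i + N) * W),
      ⟨(o.map bt).reverse, []⟩, bw A A₀ (batchB W q om nu iv n N p μ
        (cutB (padB W) W i N x) (cutB (padB W) W i N y)), ⟨[], []⟩, ⟨[], []⟩,
        rV W n q N, wV A A₀ W q om nu iv⟩) .N 0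
  rw [update_rV, ru_zero] at e4
  rw [e4] at k4
  -- append
  have k5 := run_appendB (d := dd A A₀) (bit := (bt : Bool → Al A A₀))
    (I := (ng .x : LG A.Tape A₀.Tape Y)) (O := ng .o) (by simp [ng])
    (x := batchB W q om nu iv n N p μ (cutB (padB W) W i N x) (cutB (padB W) W i N y)) (o := o)
    (m := (mem0 A, mem0 A₀)) (z := z2 .u S ⟨zipAt (x.map bt) ((i + N) * W),
      zipAt (y.map bt) ((i + N) * W),
      ⟨(o.map bt).reverse, []⟩, bw A A₀ (batchB W q om nu iv n N p μ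
        (cutB (padB W) W i N x) (cutB (padB W) W i N y)), ⟨[], []⟩, ⟨[], []⟩,
        rV W n q 0, wV A A₀ W q om nu iv⟩) rfl rfl
  rw [z2_x, z2_o] at k5
  refine (k1.seq (k2.seq (k3.seq (k4.seq k5)))).mono ?_
  have hlen : (batchB W q om nu iv n N p μ (cutB (padB W) W i N x)
      (cutB (padB W) W i N y)).length = W * N := by
    rw [hb, H778.length_slots]
  rw [hlen]
  have hpad := padB_le_W hW
  have c1 : jB W n * (padB W * 4 + 5 * W + 9) ≤ n := by
    calc jB W n * (padB W * 4 + 5 * W + 9) ≤ jB W n * (400 * W) :=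
          Nat.mul_le_mul_left _ (by omega)
      _ = 400 * jB W n * W := by ring
      _ ≤ n := hJ2
  have c2 : jB W n * (padB W * 4 + 5 * W + 7) ≤ n :=
    (Nat.mul_le_mul_left _ (by omega)).trans c1
  have c3 : 4 * (W * N) ≤ n := by
    calc 4 * (W * N) = 4 * N * W := by ring
      _ ≤ 400 * N * W := Nat.mul_le_mul_right _ (by omega)
      _ ≤ n := hNn
  have c4 : N * W * τ W ≤ T * W * τ W :=
    Nat.mul_le_mul_right _ (Nat.mul_le_mul_right _ (by omega))
  have c5 : c * (mulTime A n + n + N * W * τ W) ≤ c * (mulTime A n + n + T * W * τ W) :=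
    Nat.mul_le_mul_left _ (by omega)
  have c6 : (c + 10) * (mulTime A n + n + T * W * τ W) =
      c * (mulTime A n + n + T * W * τ W) + 10 * (mulTime A n + n + T * W * τ W) := by ring
  rw [c6]
  generalize c * (mulTime A n + n + T * W * τ W) = u1 at *
  generalize c * (mulTime A n + n + N * W * τ W) = u2 at *
  generalize T * W * τ W = u3 at *
  omega

/-- **Long files.** -/
theorem longP_ok {pc : PG A A₀ Y} {c : ℕ} {τ : ℕ → ℕ} (hpc : PieceOK pc c τ) :
    LongOK (longP pc) (800 * (c + 10) + 810) τ := by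
  intro W n q om nu iv T p μ S x y hP hn hwd h800 hT hTn hR hp hμ hSp hSμ hx hy
  have hW := hP.hW
  obtain ⟨hJ1, -, hJ3⟩ := H101.Bp.jB_facts (W := W) (n := n) (by omega) (by omega)
  have k1 := run_longB (d := dd A A₀) (bit := (bt : Bool → Al A A₀))
    (src := (ng .z : LG A.Tape A₀.Tape Y)) (St := StL A A₀ Y S W n q om nu iv x y)
    (J := jB W n) hx (by omega) (fun _ _ _ => rfl)
    (fun i hi o => run_bodyL hpc hP hn hwd h800 hR hp hμ hSp hSμ hx hy hi o) 800 (hJ3 T hTn)
  have e0 : StL A A₀ Y S W n q om nu iv x y 0 [] =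
      st2 Y S (bZ A A₀ W n q om nu iv (bw A A₀ x) (bw A A₀ y) ⟨[], []⟩ ⟨[], []⟩) := by
    unfold StL
    rw [Nat.zero_mul, zipAt_zero, zipAt_zero]
    rfl
  rw [e0] at k1
  set out := longB W q om nu iv n (jB W n) p μ T x y 800 0 with hout
  have k2 := run_clrG (A := A) (A₀ := A₀) (Y := Y) (ng .z) S
    (bZ A A₀ W n q om nu iv (zipAt (x.map bt) (T * W)) (zipAt (y.map bt) (T * W))
    ⟨(out.map bt).reverse, []⟩ ⟨[], []⟩)
  rw [z2_z] at k2
  have k3 := run_clrG (A := A) (A₀ := A₀) (Y := Y) (ng .c) S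
    (bZ A A₀ W n q om nu iv ⟨[], []⟩ (zipAt (y.map bt) (T * W))
    ⟨(out.map bt).reverse, []⟩ ⟨[], []⟩)
  rw [z2_c] at k3
  have k4 := run_rew (d := dd A A₀) (ng .o : LG A.Tape A₀.Tape Y) (mem0 A, mem0 A₀)
    (z2 .u S (bZ A A₀ W n q om nu iv ⟨[], []⟩ ⟨[], []⟩ ⟨(out.map bt).reverse, []⟩ ⟨[], []⟩))
  have e1 : (z2 (T := A.Tape) (T₀ := A₀.Tape) (Y := Y) .u S
      (bZ A A₀ W n q om nu iv ⟨[], []⟩ ⟨[], []⟩ ⟨(out.map bt).reverse, []⟩ ⟨[], []⟩)
      (ng .o)).full = out.map bt := by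
    show (⟨(out.map bt).reverse, []⟩ : Zip (Al A A₀)).full = _
    simp [Zip.full]
  rw [e1, z2_o] at k4
  refine (k1.seq (k2.seq (k3.seq k4))).mono ?_
  have c1 : 800 * ((c + 10) * (mulTime A n + n + T * W * τ W) + 1) + 1 + (2 + (2 + 1)) ≤
      800 * ((c + 10) * (mulTime A n + n + T * W * τ W)) + 810 * n := by
    omega
  refine c1.trans ?_
  have c2 : (800 * (c + 10) + 810) * (mulTime A n + n + T * W * τ W) =
      800 * ((c + 10) * (mulTime A n + n + T * W * τ W)) +
        810 * (mulTime A n + n + T * W * τ W) := by ring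
  rw [c2]
  have c3 : n ≤ mulTime A n + n + T * W * τ W := by omega
  exact Nat.add_le_add_left (Nat.mul_le_mul_left _ c3) _

end

end Vale.Agent.P338.R2.H525.Bp
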